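import Mathlib
import Vale.Agent.P230.Main
import Vale.Agent.P230.Lattice

namespace Vale.Agent.Results.P230.CoveringDensityOrder

open Filter MeasureTheory Metric
open scoped ENNReal

/-- Translative covering densities of convex bodies can be of order `n log n`. -/
theorem result :
    (∃ c : ℝ, 0 < c ∧ ∃ n₀ : ℕ, ∀ n ≥ n₀, ∃ K : Set (EuclideanSpace ℝ (Fin n)),
      Convex ℝ K ∧ IsCompact K ∧ (interior K).Nonempty ∧
      (∀ X : Set (EuclideanSpace ℝ (Fin n)),
        (∀ s, Bornology.IsBounded s → (X ∩ s).Finite) →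
        (∀ y, ∃ x ∈ X, y - x ∈ K) →
        ENNReal.ofReal (c * n * Real.log n) ≤
          limsup (fun R : ℝ =>
            volume K * ((X ∩ {x | ∀ i, |x i| ≤ R}).encard : ℝ≥0∞) /
              ENNReal.ofReal ((2 * R) ^ n)) atTop) ∧
      ∀ b : Module.Basis (Fin n) ℝ (EuclideanSpace ℝ (Fin n)),
        (∀ y, ∃ x ∈ Submodule.span ℤ (Set.range b), y - x ∈ K) →
        ENNReal.ofReal (c * n * Real.log n) * volume (ZSpan.fundamentalDomain b) ≤ volume K) ∧
    ¬ ∃ C : ℝ, ∀ n : ℕ, 1 ≤ n → ∀ K : Set (EuclideanSpace ℝ (Fin n)),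
      Convex ℝ K → IsCompact K → (interior K).Nonempty → ∀ ε : ℝ, 0 < ε →
      ∃ X : Set (EuclideanSpace ℝ (Fin n)),
        (∀ s, Bornology.IsBounded s → (X ∩ s).Finite) ∧ (∀ y, ∃ x ∈ X, y - x ∈ K) ∧
        limsup (fun R : ℝ =>
          volume K * ((X ∩ {x | ∀ i, |x i| ≤ R}).encard : ℝ≥0∞) /
            ENNReal.ofReal ((2 * R) ^ n)) atTop ≤ ENNReal.ofReal (C * n + ε) := by
  obtain ⟨c, hc, hev⟩ := Vale.Agent.P230.main
  obtain ⟨n₀, hn₀⟩ := eventually_atTop.1 hev
  refine ⟨⟨c, hc, max n₀ 1, fun n hn => ?_⟩, ?_⟩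
  · obtain ⟨K, h1, h2, h3, h4⟩ := hn₀ n (le_of_max_le_left hn)
    refine ⟨K, h1, h2, h3, fun X hX hcov => h4 X (fun R => hX _
      (Vale.Agent.P230.bounded_cube n R)) hcov, fun b hb => ?_⟩
    have h5 := (h4 _ (fun R => by
      have := ZSpan.setFinite_inter b (Vale.Agent.P230.bounded_cube n R)
      rwa [Set.inter_comm] at this) hb).trans
        (Vale.Agent.P230.lattice_limsup_le b _)
    exact (ENNReal.le_div_iff_mul_le
      (Or.inl (ZSpan.measure_fundamentalDomain_ne_zero b))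
      (Or.inl (ZSpan.fundamentalDomain_isBounded b).measure_lt_top.ne)).1 h5
  · rintro ⟨C, hC⟩
    obtain ⟨n₁, hn₁⟩ := eventually_atTop.1
      ((Real.tendsto_log_atTop.comp tendsto_natCast_atTop_atTop).eventually_ge_atTop
        ((max C 0 + 2) / c))
    set n := max (max n₀ n₁) 1 with hn
    have hnn₀ : n₀ ≤ n := (le_max_left n₀ n₁).trans (le_max_left _ _)
    have hnn₁ : n₁ ≤ n := (le_max_right n₀ n₁).trans (le_max_left _ _)
    have hn1 : 1 ≤ n := le_max_right _ _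
    obtain ⟨K, h1, h2, h3, h4⟩ := hn₀ n hnn₀
    obtain ⟨X, hX, hcov, hle⟩ := hC n hn1 K h1 h2 h3 1 one_pos
    have h5 := (h4 X (fun R => hX _ (Vale.Agent.P230.bounded_cube n R)) hcov).trans hle
    have h6 : (max C 0 + 2) / c ≤ Real.log n := hn₁ n hnn₁
    rw [div_le_iff₀ hc] at h6
    have hn1' : (1 : ℝ) ≤ n := by exact_mod_cast hn1
    have h7 : (n : ℝ) * (max C 0 + 2) ≤ c * n * Real.log n := by
      calc (n : ℝ) * (max C 0 + 2) ≤ n * (Real.log n * c) := by gcongr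
        _ = _ := by ring
    have h8 : C * n + 1 < (n : ℝ) * (max C 0 + 2) := by
      have := mul_le_mul_of_nonneg_left (le_max_left C 0) (by linarith : (0 : ℝ) ≤ n)
      nlinarith
    have h9 : 0 < c * n * Real.log n := by
      have := mul_nonneg (by linarith : (0 : ℝ) ≤ n) (le_max_right C 0)
      linarith
    have h10 := (ENNReal.ofReal_lt_ofReal_iff h9).2 (lt_of_lt_of_le h8 h7)
    exact absurd h5 (not_le.2 h10)

end Vale.Agent.Results.P230.CoveringDensityOrder
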